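import Vale.Agent.P318.H724.Cube
import Vale.Agent.P318.H724.Final
import Vale.Agent.P318.H867.Cut

/-! Coarea inequality for Euclidean distances, and the case of a dense ball. -/

open Finset

namespace Vale.Agent.P318.H743

open Vale.Agent.P318.H867 Vale.Agent.P318.H724

lemma khin_lower {N : ℕ} (y : Fin N → ℝ) :
    5 / 9 * (2 ^ N * Real.sqrt (∑ l, y l ^ 2)) ≤ ∑ e, |lin e y| := by
  set v := ∑ l, y l ^ 2 with hv
  have hv0 : 0 ≤ v := sum_nonneg fun l _ => sq_nonneg _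
  set s := Real.sqrt v with hs
  have hs0 : 0 ≤ s := Real.sqrt_nonneg _
  have hsv : s ^ 2 = v := Real.sq_sqrt hv0
  rcases hs0.eq_or_lt with h | h
  · rw [← h, mul_zero, mul_zero]
    exact sum_nonneg fun e _ => abs_nonneg _
  have key : ∀ e : Fin N → Bool,
      lin e y ^ 2 * s ^ 2 - 4 / 27 * lin e y ^ 4 ≤ s ^ 3 * |lin e y| := by
    intro e
    set u := |lin e y| with hu
    have hu0 : 0 ≤ u := abs_nonneg _
    have e2 : lin e y ^ 2 = u ^ 2 := (sq_abs _).symm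
    have e4 : lin e y ^ 4 = u ^ 4 := by
      calc lin e y ^ 4 = (lin e y ^ 2) ^ 2 := by ring
        _ = (u ^ 2) ^ 2 := by rw [e2]
        _ = u ^ 4 := by ring
    rw [e2, e4]
    have : 0 ≤ u * ((u + 3 * s) * (u - 3 / 2 * s) ^ 2) := by positivity
    nlinarith [this]
  have h1 := sum_le_sum fun e (_ : e ∈ (univ : Finset (Fin N → Bool))) => key e
  rw [sum_sub_distrib, ← sum_mul, ← mul_sum, ← mul_sum, moment2] at h1
  have h4 := moment4 y
  rw [← hv] at h1 h4
  have h5 : (2 ^ N * v * s ^ 2 - 4 / 27 * (3 * 2 ^ N * v ^ 2)) ≤ s ^ 3 * ∑ e, |lin e y| := by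
    have : 4 / 27 * ∑ e, lin e y ^ 4 ≤ 4 / 27 * (3 * 2 ^ N * v ^ 2) :=
      mul_le_mul_of_nonneg_left h4 (by norm_num)
    linarith
  rw [← hsv] at h5
  have h6 : s ^ 3 * (5 / 9 * (2 ^ N * s)) ≤ s ^ 3 * ∑ e, |lin e y| := by
    refine le_trans (le_of_eq ?_) h5
    ring
  exact le_of_mul_le_mul_left h6 (by positivity)

lemma khin_upper {N : ℕ} (y : Fin N → ℝ) :
    ∑ e, |lin e y| ≤ 2 ^ N * Real.sqrt (∑ l, y l ^ 2) := by
  have h1 := sq_sum_le_card_mul_sum_sq (s := (univ : Finset (Fin N → Bool)))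
    (f := fun e => |lin e y|)
  have h2 : ∑ e : Fin N → Bool, |lin e y| ^ 2 = 2 ^ N * ∑ l, y l ^ 2 := by
    rw [← moment2]
    exact sum_congr rfl fun e _ => sq_abs _
  rw [h2] at h1
  have h3 : ((univ : Finset (Fin N → Bool)).card : ℝ) = 2 ^ N := by simp
  rw [h3] at h1
  have hv0 : 0 ≤ ∑ l, y l ^ 2 := sum_nonneg fun l _ => sq_nonneg _
  apply le_of_sq_le_sq _ (by positivity)
  rw [mul_pow, Real.sq_sqrt hv0]
  calc _ ≤ _ := h1
    _ = _ := by ring

variable {V : Type*} [Fintype V] [DecidableEq V]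

/-- Euclidean distance of two points of `ℝ^N` -/
noncomputable def dist2 {N : ℕ} (y z : Fin N → ℝ) : ℝ := Real.sqrt (∑ l, (y l - z l) ^ 2)

theorem coarea_l2 {c : V → V → ℝ} (hc : ∀ i j, 0 ≤ c i j) (hs : ∀ i j, c i j = c j i)
    {N : ℕ} (w : V → Fin N → ℝ) :
    phi c * (5 / 9 * ∑ x, ∑ y, dist2 (w x) (w y)) ≤ ∑ x, ∑ y, c x y * dist2 (w x) (w y) := by
  have h0 := phi_nonneg hc
  have h1 : ∑ e : Fin N → Bool, phi c * ∑ x, ∑ y, |lin e (w x) - lin e (w y)| ≤
      ∑ e : Fin N → Bool, ∑ x, ∑ y, c x y * |lin e (w x) - lin e (w y)| :=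
    sum_le_sum fun e _ => coarea hc hs fun x => lin e (w x)
  have h2 : ∀ F : V → V → ℝ, ∑ e : Fin N → Bool, ∑ x, ∑ y, F x y * |lin e (w x) - lin e (w y)| =
      ∑ x, ∑ y, F x y * ∑ e : Fin N → Bool, |lin e (fun l => w x l - w y l)| := by
    intro F
    rw [sum_comm]
    apply sum_congr rfl; intro x _
    rw [sum_comm]
    apply sum_congr rfl; intro y _
    rw [mul_sum]
    apply sum_congr rfl; intro e _
    rw [lin_sub]
  rw [← mul_sum, h2] at h1
  have h3 := h2 fun _ _ => 1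
  simp only [one_mul] at h3
  rw [h3] at h1
  have h4 : 2 ^ N * (5 / 9 * ∑ x, ∑ y, dist2 (w x) (w y)) ≤
      ∑ x, ∑ y, ∑ e : Fin N → Bool, |lin e (fun l => w x l - w y l)| := by
    rw [mul_sum, mul_sum]
    apply sum_le_sum; intro x _
    rw [mul_sum, mul_sum]
    apply sum_le_sum; intro y _
    have := khin_lower fun l => w x l - w y l
    unfold dist2
    linarith
  have h5 : ∑ x, ∑ y, c x y * ∑ e : Fin N → Bool, |lin e (fun l => w x l - w y l)| ≤
      2 ^ N * ∑ x, ∑ y, c x y * dist2 (w x) (w y) := by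
    rw [mul_sum]
    apply sum_le_sum; intro x _
    rw [mul_sum]
    apply sum_le_sum; intro y _
    have := mul_le_mul_of_nonneg_left (khin_upper fun l => w x l - w y l) (hc x y)
    unfold dist2
    linarith
  have h6 := (mul_le_mul_of_nonneg_left h4 h0).trans (h1.trans h5)
  have h7 : (2 : ℝ) ^ N * (phi c * (5 / 9 * ∑ x, ∑ y, dist2 (w x) (w y))) ≤
      2 ^ N * ∑ x, ∑ y, c x y * dist2 (w x) (w y) := by
    calc _ = phi c * (2 ^ N * (5 / 9 * ∑ x, ∑ y, dist2 (w x) (w y))) := by ring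
      _ ≤ _ := h6
  exact le_of_mul_le_mul_left h7 (by positivity)

/-- The case of a dense ball. -/
theorem dense {c : V → V → ℝ} (hc : ∀ i j, 0 ≤ c i j) (hs : ∀ i j, c i j = c j i)
    {d : V → V → ℝ} (h0 : ∀ x y, 0 ≤ d x y) (hd : ∀ x y, d x y = d y x)
    (ht : ∀ x y z, d x z ≤ d x y + d y z) {ρ : ℝ} (x0 : V)
    (hρS : 8 * ρ * (Fintype.card V : ℝ) ^ 2 ≤ ∑ x, ∑ y, d x y)
    (hB : (Fintype.card V : ℝ) ≤ 2 * (univ.filter fun y => d x0 y ≤ ρ).card) :
    phi c * ∑ x, ∑ y, d x y ≤ 16 * ∑ x, ∑ y, c x y * d x y := by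
  set n : ℝ := (Fintype.card V : ℝ) with hn
  set S := ∑ x, ∑ y, d x y with hS
  have hn1 : 0 < n := by
    rw [hn]
    exact_mod_cast Fintype.card_pos_iff.2 ⟨x0⟩
  set f : V → ℝ := fun y => max (d x0 y - ρ) 0 with hf
  set B := univ.filter fun y => d x0 y ≤ ρ with hBd
  have hf0 : ∀ y, 0 ≤ f y := fun y => le_max_right _ _
  have hfB : ∀ y ∈ B, f y = 0 := by
    intro y hy
    rw [hBd, mem_filter] at hy
    exact max_eq_right (by linarith [hy.2])
  have hlip : ∀ y z, |f y - f z| ≤ d y z := by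
    intro y z
    refine (abs_max_sub_max_le_abs _ _ _).trans ?_
    rw [abs_le]
    constructor
    · linarith [ht x0 y z]
    · linarith [ht x0 z y, hd y z]
  have h1 := coarea hc hs f
  have h2 : ∑ x, ∑ y, c x y * |f x - f y| ≤ ∑ x, ∑ y, c x y * d x y :=
    sum_le_sum fun x _ => sum_le_sum fun y _ => mul_le_mul_of_nonneg_left (hlip x y) (hc x y)
  have h3 : S ≤ 2 * n * ∑ z, d x0 z := by
    calc S ≤ ∑ x, ∑ y, (d x0 x + d x0 y) := by
          rw [hS]
          exact sum_le_sum fun x _ => sum_le_sum fun y _ => by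
            linarith [ht x x0 y, hd x x0]
      _ = 2 * n * ∑ z, d x0 z := by
          simp only [sum_add_distrib, sum_const, card_univ, nsmul_eq_mul]
          rw [← mul_sum, ← hn]
          ring
  have h4 : ∑ z, d x0 z - n * ρ ≤ ∑ z, f z := by
    have : ∑ z : V, (d x0 z - ρ) ≤ ∑ z, f z := sum_le_sum fun z _ => le_max_left _ _
    rw [sum_sub_distrib, sum_const, card_univ, nsmul_eq_mul] at this
    exact this
  have h5 : (B.card : ℝ) * ∑ z, f z ≤ ∑ x, ∑ y, |f x - f y| := by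
    calc (B.card : ℝ) * ∑ z, f z = ∑ x ∈ B, ∑ y, |f x - f y| := by
          rw [← nsmul_eq_mul, ← sum_const]
          apply sum_congr rfl
          intro x hx
          apply sum_congr rfl
          intro y _
          rw [hfB x hx, zero_sub, abs_neg, abs_of_nonneg (hf0 y)]
      _ ≤ ∑ x, ∑ y, |f x - f y| :=
          sum_le_sum_of_subset_of_nonneg (subset_univ _) fun x _ _ =>
            sum_nonneg fun y _ => abs_nonneg _
  have hsf : 0 ≤ ∑ z, f z := sum_nonneg fun z _ => hf0 z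
  have h6 : n / 2 * ∑ z, f z ≤ ∑ x, ∑ y, |f x - f y| :=
    (mul_le_mul_of_nonneg_right (by linarith) hsf).trans h5
  have h7 : 3 * S ≤ 8 * n * ∑ z, f z := by
    nlinarith [mul_le_mul_of_nonneg_left h4 (by positivity : 0 ≤ 8 * n)]
  have h8 : 3 / 16 * S ≤ ∑ x, ∑ y, |f x - f y| := by
    linarith
  have h9 := mul_le_mul_of_nonneg_left h8 (phi_nonneg hc)
  have h10 : 0 ≤ ∑ x, ∑ y, c x y * d x y :=
    sum_nonneg fun x _ => sum_nonneg fun y _ => mul_nonneg (hc x y) (h0 x y)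
  nlinarith [h9, h1, h2, h10]

end Vale.Agent.P318.H743
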