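import Vale.Agent.P318.R2.H743.Scheme

/-! Blocks of short edges and the bound for arbitrary semimetrics. -/

open Finset

set_option linter.unusedSectionVars false

namespace Vale.Agent.P318.H743

open Vale.Agent.P318.H867 Vale.Agent.P318.H724

variable {V ι : Type*} [Fintype V] [DecidableEq V] [DecidableEq ι] {r : V → V → ι}

/-- the blocks: components of the graph of the short edges -/
theorem exists_blocks (hr : Coherent r) {c d : V → V → ℝ} (hs : ∀ i j, c i j = c j i)
    (hcr : ClassFun r c) {D : ℕ} (hD : ShortChains r c D)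
    (h0 : ∀ x, d x x = 0) (hd : ∀ x y, d x y = d y x) (ht : ∀ x y z, d x z ≤ d x y + d y z)
    {τ : ℝ} (hτ : 0 ≤ τ) :
    ∃ E : V → V → Prop, (∀ x, E x x) ∧ (∀ x y, E x y → E y x) ∧
      (∀ x y z, E x y → E y z → E x z) ∧
      (∀ x y x' y', r x y = r x' y' → E x y → E x' y') ∧
      (∀ x y, E x y → avg r d x y ≤ D * τ) ∧
      (∀ x y, ¬ E x y → c x y = 0 ∨ τ ≤ avg r d x y) := by
  set J : Set ι := {i | ∃ u v, r u v = i ∧ c u v ≠ 0 ∧ avg r d u v < τ} with hJ
  have hJiff : ∀ x y, r x y ∈ J → c x y ≠ 0 ∧ avg r d x y < τ := by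
    rintro x y ⟨u, v, h1, h2, h3⟩
    rw [hcr _ _ _ _ h1] at h2
    rw [avg_class r d _ _ _ _ h1] at h3
    exact ⟨h2, h3⟩
  have hJ1 : ∀ x y, r x y ∈ J → c x y ≠ 0 := fun x y h => (hJiff x y h).1
  have hJ2 : ∀ x y, r x y ∈ J → r y x ∈ J := by
    intro x y h
    obtain ⟨h1, h2⟩ := hJiff x y h
    refine ⟨y, x, rfl, ?_, ?_⟩
    · rw [hs]; exact h1
    · rw [avg_symm hr hd]; exact h2
  have hD' := hD J hJ1 hJ2
  have hd0 : ∀ x y, 0 ≤ d x y := by
    intro x y
    have := ht x y x
    rw [h0, hd y x] at this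
    linarith
  refine ⟨fun x y => Chain (fun a b => r a b ∈ J) D x y, fun x => chain_refl D x,
    fun x y h => chain_symm hJ2 h, fun x y z h1 h2 => hD' _ x z (chain_trans h1 h2),
    fun x y x' y' h h1 => chain_class hr J h h1, fun x y h => ?_, fun x y h => ?_⟩
  · exact chain_bound (avg_diag hr h0) (fun x y z => avg_triangle hr ht x y z) hτ
      (fun a b hab => (hJiff a b hab).2.le) h
  · by_contra hcon
    push Not at hcon
    apply h
    exact hD' 1 x y (chain_one ⟨x, y, rfl, hcon.1, hcon.2⟩)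

open Classical in
/-- cuts between blocks -/
theorem cut_blocks {c : V → V → ℝ} (hc : ∀ i j, 0 ≤ c i j) (hs : ∀ i j, c i j = c j i)
    {E : V → V → Prop} (e1 : ∀ x, E x x) (e2 : ∀ x y, E x y → E y x)
    (e3 : ∀ x y z, E x y → E y z → E x z) :
    phi c * ∑ x, ∑ y, (if E x y then (0 : ℝ) else 1) ≤
      ∑ x, ∑ y, c x y * (if E x y then (0 : ℝ) else 1) := by
  set S : V → Finset V := fun z => univ.filter fun y => E z y with hS
  have hSpos : ∀ z, (0 : ℝ) < (S z).card := by
    intro z
    have : 0 < (S z).card := card_pos.2 ⟨z, by simp [hS, e1]⟩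
    exact_mod_cast this
  have hSeq : ∀ x y, E x y → S x = S y := by
    intro x y h
    ext z
    simp only [hS, mem_filter, mem_univ, true_and]
    exact ⟨fun h1 => e3 _ _ _ (e2 _ _ h) h1, fun h1 => e3 _ _ _ h h1⟩
  have hone : ∀ x, ∑ z, ((S z).card : ℝ)⁻¹ * (if E z x then (1 : ℝ) else 0) = 1 := by
    intro x
    have h1 : ∀ z, ((S z).card : ℝ)⁻¹ * (if E z x then (1 : ℝ) else 0) =
        if z ∈ S x then ((S x).card : ℝ)⁻¹ else 0 := by
      intro z
      by_cases h : E z x
      · rw [if_pos h, if_pos (by simp [hS, e2 _ _ h]), hSeq z x h, mul_one]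
      · rw [if_neg h, if_neg (by
          simp only [hS, mem_filter, mem_univ, true_and]
          exact fun h' => h (e2 _ _ h')), mul_zero]
    simp_rw [h1]
    rw [sum_ite_mem, univ_inter, sum_const, nsmul_eq_mul]
    exact mul_inv_cancel₀ (hSpos x).ne'
  have hsum : ∀ x y, ∑ z, ((S z).card : ℝ)⁻¹ * |ind (S z) x - ind (S z) y| =
      2 * (if E x y then (0 : ℝ) else 1) := by
    intro x y
    have hind : ∀ z x, ind (S z) x = if E z x then (1 : ℝ) else 0 := by
      intro z x
      simp [ind, hS]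
    by_cases h : E x y
    · rw [if_pos h, mul_zero]
      apply sum_eq_zero
      intro z _
      have : E z x ↔ E z y := ⟨fun h1 => e3 _ _ _ h1 h, fun h1 => e3 _ _ _ h1 (e2 _ _ h)⟩
      rw [hind, hind]
      simp [this]
    · rw [if_neg h]
      have h1 : ∀ z, ((S z).card : ℝ)⁻¹ * |ind (S z) x - ind (S z) y| =
          ((S z).card : ℝ)⁻¹ * (if E z x then (1 : ℝ) else 0) +
            ((S z).card : ℝ)⁻¹ * (if E z y then (1 : ℝ) else 0) := by
        intro z
        rw [hind, hind, ← mul_add]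
        congr 1
        by_cases h1 : E z x
        · have h2 : ¬ E z y := fun h2 => h (e3 _ _ _ (e2 _ _ h1) h2)
          simp [h1, h2]
        · by_cases h2 : E z y <;> simp [h1, h2]
      simp_rw [h1]
      rw [sum_add_distrib, hone, hone]
      norm_num
  have hmain : ∑ z, ((S z).card : ℝ)⁻¹ * (phi c * ∑ x, ∑ y, |ind (S z) x - ind (S z) y|) ≤
      ∑ z, ((S z).card : ℝ)⁻¹ * ∑ x, ∑ y, c x y * |ind (S z) x - ind (S z) y| :=
    sum_le_sum fun z _ => mul_le_mul_of_nonneg_left (ind_ineq hc hs (S z))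
      (inv_nonneg.2 (hSpos z).le)
  have hswap : ∀ F : V → V → ℝ,
      ∑ z, ((S z).card : ℝ)⁻¹ * ∑ x, ∑ y, F x y * |ind (S z) x - ind (S z) y| =
      2 * ∑ x, ∑ y, F x y * (if E x y then (0 : ℝ) else 1) := by
    intro F
    simp_rw [mul_sum]
    rw [sum_comm]
    apply sum_congr rfl
    intro x _
    rw [sum_comm]
    apply sum_congr rfl
    intro y _
    have : ∀ z, ((S z).card : ℝ)⁻¹ * (F x y * |ind (S z) x - ind (S z) y|) =
        F x y * (((S z).card : ℝ)⁻¹ * |ind (S z) x - ind (S z) y|) := fun z => by ring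
    simp_rw [this]
    rw [← mul_sum, hsum]
    ring
  have h1 : ∑ z, ((S z).card : ℝ)⁻¹ * (phi c * ∑ x, ∑ y, |ind (S z) x - ind (S z) y|) =
      phi c * (2 * ∑ x, ∑ y, (if E x y then (0 : ℝ) else 1)) := by
    have h2 := hswap fun _ _ => 1
    simp only [one_mul] at h2
    rw [← h2, mul_sum]
    apply sum_congr rfl
    intro z _
    ring
  rw [h1, hswap] at hmain
  linarith

/-- **The bound for all semimetrics.** -/
theorem lr_main (hr : Coherent r) {c d : V → V → ℝ} (hc : ∀ i j, 0 ≤ c i j)
    (hs : ∀ i j, c i j = c j i) (hcr : ClassFun r c) {D : ℕ} (hD1 : 1 ≤ D)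
    (hD : ShortChains r c D) (h0 : ∀ x, d x x = 0) (hd : ∀ x y, d x y = d y x)
    (ht : ∀ x y z, d x z ≤ d x y + d y z) :
    phi c * ∑ x, ∑ y, d x y ≤ 16 * D * ∑ x, ∑ y, c x y * d x y := by
  classical
  have hd0 : ∀ x y, 0 ≤ d x y := by
    intro x y
    have := ht x y x
    rw [h0, hd y x] at this
    linarith
  have hD1' : (1 : ℝ) ≤ D := by exact_mod_cast hD1
  have hcd0 : 0 ≤ ∑ x, ∑ y, c x y * d x y :=
    sum_nonneg fun x _ => sum_nonneg fun y _ => mul_nonneg (hc x y) (hd0 x y)
  set n : ℝ := (Fintype.card V : ℝ) with hn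
  set S := ∑ x, ∑ y, d x y with hS
  have hS0 : 0 ≤ S := sum_nonneg fun x _ => sum_nonneg fun y _ => hd0 x y
  rcases hS0.eq_or_lt with hz | hSpos
  · rw [← hz, mul_zero]
    positivity
  have hn0 : 0 < n := by
    rw [hn]
    have : Nonempty V := by
      by_contra hcon
      rw [not_nonempty_iff] at hcon
      rw [hS] at hSpos
      simp at hSpos
    exact_mod_cast Fintype.card_pos
  have hS1 : ∑ x, ∑ y, avg r d x y = S := by
    have := avg_sum (r := r) (F := fun _ _ => 1) (fun _ _ _ _ _ => rfl) d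
    simpa using this
  have hS2 : ∑ x, ∑ y, c x y * avg r d x y = ∑ x, ∑ y, c x y * d x y := avg_sum hcr d
  set a := S / n ^ 2 / 8 with ha
  have ha0 : 0 < a := by positivity
  have haS : 8 * a * n ^ 2 = S := by
    rw [ha]; field_simp
  by_cases hcase : ∃ x0, n ≤ 2 * (univ.filter fun y => avg r d x0 y ≤ a).card
  · obtain ⟨x0, hx0⟩ := hcase
    have h1 := dense hc hs (avg_nonneg hd0) (avg_symm hr hd)
      (fun x y z => avg_triangle hr ht x y z) x0 (by rw [hS1, ← hn, haS]) hx0
    rw [hS1, hS2] at h1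
    nlinarith [h1, hcd0, hD1', mul_nonneg (by linarith : (0 : ℝ) ≤ D - 1) hcd0]
  · push Not at hcase
    have hτ0 : 0 < a / D := by positivity
    obtain ⟨E, e1, e2, e3, -, e5, e6⟩ := exists_blocks hr hs hcr hD h0 hd ht hτ0.le
    have hcut := cut_blocks hc hs e1 e2 e3
    have h1 : n ^ 2 / 2 ≤ ∑ x, ∑ y, (if E x y then (0 : ℝ) else 1) := by
      have h2 : ∀ x, n / 2 ≤ ∑ y, (if E x y then (0 : ℝ) else 1) := by
        intro x
        have h3 : ∑ y, (if E x y then (0 : ℝ) else 1) = n - (univ.filter fun y => E x y).card := by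
          have h4 : ∀ y, (if E x y then (0 : ℝ) else 1) = 1 - (if E x y then (1 : ℝ) else 0) := by
            intro y; split_ifs <;> norm_num
          simp_rw [h4]
          rw [sum_sub_distrib, sum_boole, sum_const, card_univ, nsmul_eq_mul, mul_one, ← hn]
        rw [h3]
        have h5 : ((univ.filter fun y => E x y).card : ℝ) ≤
            (univ.filter fun y => avg r d x y ≤ a).card := by
          have : (univ.filter fun y => E x y).card ≤
              (univ.filter fun y => avg r d x y ≤ a).card := by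
            apply card_le_card
            intro y hy
            rw [mem_filter] at hy ⊢
            refine ⟨mem_univ _, (e5 x y hy.2).trans (le_of_eq ?_)⟩
            field_simp
          exact_mod_cast this
        have h6 := hcase x
        linarith
      calc n ^ 2 / 2 = ∑ _x : V, n / 2 := by
            rw [sum_const, card_univ, nsmul_eq_mul, ← hn]; ring
        _ ≤ _ := sum_le_sum fun x _ => h2 x
    have h2 : ∑ x, ∑ y, c x y * (if E x y then (0 : ℝ) else 1) ≤
        D / a * ∑ x, ∑ y, c x y * d x y := by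
      rw [← hS2, mul_sum]
      apply sum_le_sum
      intro x _
      rw [mul_sum]
      apply sum_le_sum
      intro y _
      by_cases h : E x y
      · rw [if_pos h, mul_zero]
        have := avg_nonneg (r := r) hd0 x y
        have := hc x y
        positivity
      · rw [if_neg h, mul_one]
        rcases e6 x y h with h3 | h3
        · rw [h3]; simp
        · have h4 : 1 ≤ D / a * avg r d x y := by
            rw [div_mul_eq_mul_div, one_le_div ha0]
            rw [div_le_iff₀ (by positivity)] at h3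
            linarith
          have h5 := mul_le_mul_of_nonneg_left h4 (hc x y)
          linarith
    have h3 : phi c * (n ^ 2 / 2) ≤ D / a * ∑ x, ∑ y, c x y * d x y :=
      (mul_le_mul_of_nonneg_left h1 (phi_nonneg hc)).trans (hcut.trans h2)
    have h4 := mul_le_mul_of_nonneg_left h3 (by positivity : 0 ≤ 16 * a)
    have h5 : 16 * a * (D / a * ∑ x, ∑ y, c x y * d x y) =
        16 * D * ∑ x, ∑ y, c x y * d x y := by
      field_simp
    rw [h5] at h4
    calc phi c * S = 16 * a * (phi c * (n ^ 2 / 2)) := by rw [← haS]; ring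
      _ ≤ _ := h4

end Vale.Agent.P318.H743
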