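import Vale.Agent.P318.R2.H743.Root

/-! Instances: orbitals of permutation groups, conjugacy classes of finite groups. -/

open Finset

set_option linter.unusedSectionVars false

namespace Vale.Agent.P318.H743

open Vale.Agent.P318.H867 Vale.Agent.P318.H724

section perm

variable {V ι : Type*} [Fintype V] [DecidableEq V] [DecidableEq ι] {r : V → V → ι}

/-- classes on which the automorphisms act transitively -/
theorem coherent_of_perm (h : ∀ x y x' y', r x y = r x' y' →
    ∃ σ : Equiv.Perm V, σ x = x' ∧ σ y = y' ∧ ∀ u v, r (σ u) (σ v) = r u v) : Coherent r := by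
  refine ⟨fun x y z hxy => ?_, fun x y x' y' hxy => ?_, fun x y x' y' hxy i j => ?_⟩
  · obtain ⟨σ, h1, h2, -⟩ := h _ _ _ _ hxy
    rw [← h1, ← h2]
  · obtain ⟨σ, h1, h2, h3⟩ := h _ _ _ _ hxy
    rw [← h1, ← h2, h3]
  · obtain ⟨σ, h1, h2, h3⟩ := h _ _ _ _ hxy
    refine Finset.card_equiv σ fun z => ?_
    simp only [mem_filter, mem_univ, true_and]
    rw [← h1, ← h2, h3, h3]

end perm

section action

variable {V G : Type} [Fintype V] [DecidableEq V] [Group G] [MulAction G V]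

open Classical in
lemma coherent_orbit : Coherent (fun x y : V => MulAction.orbit G ((x, y) : V × V)) := by
  apply coherent_of_perm
  intro x y x' y' h
  have h1 : ((x', y') : V × V) ∈ MulAction.orbit G ((x, y) : V × V) :=
    MulAction.orbit_eq_iff.1 h.symm
  obtain ⟨g, hg⟩ := h1
  have hg' : (g • x, g • y) = (x', y') := hg
  rw [Prod.mk.injEq] at hg'
  refine ⟨MulAction.toPerm g, hg'.1, hg'.2, fun u v => ?_⟩
  rw [MulAction.orbit_eq_iff]
  exact ⟨g, rfl⟩

lemma orbit_eq {x y x' y' : V} :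
    MulAction.orbit G ((x, y) : V × V) = MulAction.orbit G ((x', y') : V × V) ↔
      ∃ g : G, g • x' = x ∧ g • y' = y := by
  rw [MulAction.orbit_eq_iff]
  constructor
  · rintro ⟨g, hg⟩
    have hg' : (g • x', g • y') = (x, y) := hg
    rw [Prod.mk.injEq] at hg'
    exact ⟨g, hg'⟩
  · rintro ⟨g, h1, h2⟩
    exact ⟨g, by show (g • x', g • y') = (x, y); rw [h1, h2]⟩

lemma orbit_classFun {c : V → V → ℝ} (hinv : ∀ (g : G) u v, c (g • u) (g • v) = c u v) :
    ClassFun (fun x y : V => MulAction.orbit G ((x, y) : V × V)) c := by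
  intro x y x' y' h
  obtain ⟨g, h1, h2⟩ := orbit_eq.1 h
  rw [← h1, ← h2, hinv]

open Classical in
lemma orbit_short (c : V → V → ℝ) {k : ℕ} (p : Fin (k + 1) → V × V)
    (hp : ∀ u v : V, ∃ (i : Fin (k + 1)) (g : G),
      (g • (p i).1 = u ∧ g • (p i).2 = v) ∨ (g • (p i).1 = v ∧ g • (p i).2 = u)) :
    ShortChains (fun x y : V => MulAction.orbit G ((x, y) : V × V)) c k := by
  choose s hs using hp
  refine shortChains_of_pairs (κ := Fin (k + 1)) coherent_orbit s ?_ c (by simp)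
  intro x y x' y' h
  obtain ⟨g, hg⟩ := hs x y
  obtain ⟨g', hg'⟩ := hs x' y'
  rw [← h] at hg'
  have key : ∀ {a u w : V}, g • a = u → g' • a = w → (g * g'⁻¹) • w = u := by
    intro a u w hu hw
    rw [← hw, mul_smul, inv_smul_smul, hu]
  rcases hg with ⟨h1, h2⟩ | ⟨h1, h2⟩ <;> rcases hg' with ⟨h3, h4⟩ | ⟨h3, h4⟩
  · exact Or.inl (orbit_eq.2 ⟨g * g'⁻¹, key h1 h3, key h2 h4⟩)
  · exact Or.inr (orbit_eq.2 ⟨g * g'⁻¹, key h1 h3, key h2 h4⟩)
  · exact Or.inr (orbit_eq.2 ⟨g * g'⁻¹, key h2 h4, key h1 h3⟩)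
  · exact Or.inl (orbit_eq.2 ⟨g * g'⁻¹, key h2 h4, key h1 h3⟩)

open Classical in
lemma orbit_comm (hsw : ∀ u v : V, ∃ g : G, g • u = v ∧ g • v = u) :
    Comm (fun x y : V => MulAction.orbit G ((x, y) : V × V)) := by
  apply comm_of_symm coherent_orbit
  intro x y
  obtain ⟨g, h1, h2⟩ := hsw y x
  exact orbit_eq.2 ⟨g, h1, h2⟩

end action

section conj

variable {G : Type} [Group G] [Fintype G] [DecidableEq G]

open Classical in
lemma coherent_conj : Coherent (fun x y : G => ConjClasses.mk (x⁻¹ * y)) := by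
  apply coherent_of_perm
  intro x y x' y' h
  rw [ConjClasses.mk_eq_mk_iff_isConj, isConj_iff] at h
  obtain ⟨g, hg⟩ := h
  -- the map u ↦ x' g x⁻¹ u g⁻¹
  refine ⟨(Equiv.mulLeft (x' * g * x⁻¹)).trans (Equiv.mulRight g⁻¹), ?_, ?_, ?_⟩
  · simp
  · have : x' * g * x⁻¹ * y * g⁻¹ = x' * (g * (x⁻¹ * y) * g⁻¹) := by group
    simp only [Equiv.trans_apply, Equiv.coe_mulLeft, Equiv.coe_mulRight]
    rw [this, hg]
    group
  · intro u v
    simp only [Equiv.trans_apply, Equiv.coe_mulLeft, Equiv.coe_mulRight]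
    rw [ConjClasses.mk_eq_mk_iff_isConj, isConj_iff]
    exact ⟨g⁻¹, by group⟩

open Classical in
lemma comm_conj : Comm (fun x y : G => ConjClasses.mk (x⁻¹ * y)) := by
  intro x y i j
  refine Finset.card_equiv (((Equiv.inv G).trans (Equiv.mulLeft x)).trans (Equiv.mulRight y))
    fun z => ?_
  simp only [mem_filter, mem_univ, true_and, Equiv.trans_apply, Equiv.inv_apply,
    Equiv.coe_mulLeft, Equiv.coe_mulRight]
  have h1 : ConjClasses.mk (x⁻¹ * (x * z⁻¹ * y)) = ConjClasses.mk (z⁻¹ * y) := by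
    congr 1; group
  have h2 : ConjClasses.mk ((x * z⁻¹ * y)⁻¹ * y) = ConjClasses.mk (x⁻¹ * z) := by
    rw [ConjClasses.mk_eq_mk_iff_isConj, isConj_iff]
    exact ⟨x⁻¹ * y, by group⟩
  rw [h1, h2]
  exact and_comm

lemma conj_classFun {γ : G → ℝ} (hγ : ∀ g x, γ (x * g * x⁻¹) = γ g) :
    ClassFun (fun x y : G => ConjClasses.mk (x⁻¹ * y)) (fun x y => γ (x⁻¹ * y)) := by
  intro x y x' y' h
  simp only [ConjClasses.mk_eq_mk_iff_isConj, isConj_iff] at h
  obtain ⟨g, hg⟩ := h
  show γ (x⁻¹ * y) = γ (x'⁻¹ * y')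
  rw [← hg, hγ]

open Classical in
lemma conj_short {γ : G → ℝ} {D : ℕ}
    (hD : ∀ J : Set G, (∀ g ∈ J, γ g ≠ 0) → (∀ g ∈ J, g⁻¹ ∈ J) → (∀ g ∈ J, ∀ x, x * g * x⁻¹ ∈ J) →
      ∀ g ∈ Subgroup.closure J, ∃ l : List G, l.length ≤ D ∧ (∀ a ∈ l, a ∈ J) ∧ l.prod = g) :
    ShortChains (fun x y : G => ConjClasses.mk (x⁻¹ * y)) (fun x y => γ (x⁻¹ * y)) D := by
  intro J' hJ1 hJ2 m x y hm
  set J : Set G := {g | ConjClasses.mk g ∈ J'} with hJ
  have hJ0 : ∀ u v : G, ConjClasses.mk (u⁻¹ * v) ∈ J' ↔ u⁻¹ * v ∈ J := fun u v => Iff.rfl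
  have hcl : x⁻¹ * y ∈ Subgroup.closure J := by
    induction m generalizing y with
    | zero =>
      have : x = y := hm
      rw [this]
      simp
    | succ m ih =>
      obtain ⟨z, hz, hz'⟩ := hm
      have h1 := ih z hz
      rcases hz' with rfl | hz'
      · exact h1
      · have h2 : z⁻¹ * y ∈ Subgroup.closure J := Subgroup.subset_closure hz'
        have := Subgroup.mul_mem _ h1 h2
        simpa using this
  obtain ⟨l, hl1, hl2, hl3⟩ := hD J (fun g hg => by
      have := hJ1 1 g (by simpa [hJ] using hg)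
      simpa using this)
    (fun g hg => by
      have := hJ2 1 g (by simpa [hJ] using hg)
      simpa [hJ] using this)
    (fun g hg u => by
      show ConjClasses.mk (u * g * u⁻¹) ∈ J'
      have : ConjClasses.mk (u * g * u⁻¹) = ConjClasses.mk g := by
        rw [ConjClasses.mk_eq_mk_iff_isConj, isConj_iff]
        exact ⟨u⁻¹, by group⟩
      rw [this]
      exact hg) _ hcl
  have hchain : ∀ (l : List G), (∀ a ∈ l, a ∈ J) → ∀ u : G,
      Chain (fun a b : G => ConjClasses.mk (a⁻¹ * b) ∈ J') l.length u (u * l.prod) := by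
    intro l
    induction l with
    | nil => intro _ u; simp [Chain]
    | cons a l ih =>
      intro hal u
      have h1 : Chain (fun a b : G => ConjClasses.mk (a⁻¹ * b) ∈ J') 1 u (u * a) := by
        apply chain_one
        show ConjClasses.mk (u⁻¹ * (u * a)) ∈ J'
        rw [inv_mul_cancel_left]
        exact hal a (by simp)
      have h2 := ih (fun b hb => hal b (by simp [hb])) (u * a)
      have h3 := chain_trans h1 h2
      rw [List.prod_cons, ← mul_assoc, List.length_cons, Nat.add_comm]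
      exact h3
  have h4 := hchain l hl2 x
  rw [hl3] at h4
  have h5 : x * (x⁻¹ * y) = y := by group
  rw [h5] at h4
  exact chain_mono hl1 h4

end conj

end Vale.Agent.P318.H743
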