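import Vale.Agent.P318.R2.H743.Sym
import Vale.Agent.P318.H724.ArvMain

/-! The square root bound for the Goemans-Linial relaxation, commutative configurations. -/

open Finset

set_option linter.unusedSectionVars false

namespace Vale.Agent.P318.H743

open Vale.Agent.P318.H867 Vale.Agent.P318.H724

variable {V ι : Type*} [Fintype V] [DecidableEq V] [DecidableEq ι] {r : V → V → ι}

/-- the block relation of a commutative configuration gives block data -/
theorem exists_blk (hr : Coherent r) (hcm : Comm r) {c d : V → V → ℝ}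
    (hc : ∀ i j, 0 ≤ c i j) (hs : ∀ i j, c i j = c j i) (hcr : ClassFun r c) {D : ℕ}
    (hD : ShortChains r c D)
    (h0 : ∀ x, d x x = 0) (hd : ∀ x y, d x y = d y x) (ht : ∀ x y z, d x z ≤ d x y + d y z)
    {τ : ℝ} (hτ : 0 ≤ τ) (x0 : V) :
    ∃ (χ : V → V → ℝ) (N : ℝ), Blk c χ N ∧ ClassFun r χ ∧
      (∀ x y, χ x y * avg r d x y ≤ χ x y * (D * τ)) ∧
      (∀ x y, χ x y = 0 → c x y * τ ≤ c x y * avg r d x y) := by
  classical
  obtain ⟨E, e1, e2, e3, e4, e5, e6⟩ := exists_blocks hr hs hcr hD h0 hd ht hτ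
  set χ : V → V → ℝ := fun x y => if E x y then 1 else 0 with hχ
  have hχc : ClassFun r χ := by
    intro x y x' y' h
    have : E x y ↔ E x' y' := ⟨e4 _ _ _ _ h, e4 _ _ _ _ h.symm⟩
    simp only [hχ, this]
  have hχs : ∀ x y, χ x y = χ y x := by
    intro x y
    have : E x y ↔ E y x := ⟨e2 _ _, e2 _ _⟩
    simp only [hχ, this]
  have hχE : ∀ x y, χ x y ≠ 0 → E x y := by
    intro x y h
    by_contra hcon
    exact h (by simp [hχ, hcon])
  refine ⟨χ, ∑ y, χ x0 y, ⟨?_, ?_, ?_, hχs, ?_, ?_, ?_, ?_⟩, hχc, ?_, ?_⟩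
  · have h1 : χ x0 x0 ≤ ∑ y, χ x0 y :=
      single_le_sum (f := fun y => χ x0 y) (fun y _ => by
        simp only [hχ]; split_ifs <;> norm_num) (mem_univ x0)
    have h2 : χ x0 x0 = 1 := by simp [hχ, e1]
    linarith
  · intro x y
    simp only [hχ]; split_ifs <;> norm_num
  · intro x y
    simp only [hχ]; split_ifs <;> norm_num
  · intro x
    exact sum_class hr hχc (homog hr hcm x x0)
  · intro x x' y h
    have hE := hχE x x' h
    have : E y x ↔ E y x' := ⟨fun h1 => e3 _ _ _ h1 hE, fun h1 => e3 _ _ _ h1 (e2 _ _ hE)⟩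
    simp only [hχ, this]
  · intro x x'
    exact sum_class hr hcr (homog hr hcm x x')
  · intro x z
    rw [sum_comm_class hcm hcr hχc x z]
    apply sum_congr rfl
    intro y _
    rw [hχs x y, hs y z]
    ring
  · intro x y
    by_cases h : E x y
    · have := e5 x y h
      simp only [hχ, h, if_true, one_mul]
      exact this
    · simp [hχ, h]
  · intro x y h
    have hE : ¬ E x y := by
      intro hE
      simp [hχ, hE] at h
    rcases e6 x y hE with h1 | h1
    · rw [h1]; simp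
    · exact mul_le_mul_of_nonneg_left h1 (hc x y)

/-- Cauchy-Schwarz for capacities -/
lemma cauchy {c : V → V → ℝ} (hc : ∀ i j, 0 ≤ c i j) (e δ : V → V → ℝ) :
    (∑ x, ∑ y, c x y * (e x y * δ x y)) ^ 2 ≤
      (∑ x, ∑ y, c x y * e x y ^ 2) * ∑ x, ∑ y, c x y * δ x y ^ 2 := by
  have h := sum_mul_sq_le_sq_mul_sq (univ : Finset (V × V))
    (fun p => Real.sqrt (c p.1 p.2) * e p.1 p.2) (fun p => Real.sqrt (c p.1 p.2) * δ p.1 p.2)
  have h1 : ∀ p : V × V, Real.sqrt (c p.1 p.2) * e p.1 p.2 * (Real.sqrt (c p.1 p.2) * δ p.1 p.2) =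
      c p.1 p.2 * (e p.1 p.2 * δ p.1 p.2) := by
    intro p
    calc _ = Real.sqrt (c p.1 p.2) * Real.sqrt (c p.1 p.2) * (e p.1 p.2 * δ p.1 p.2) := by ring
      _ = _ := by rw [Real.mul_self_sqrt (hc _ _)]
  have h2 : ∀ (g : V → V → ℝ) (p : V × V), (Real.sqrt (c p.1 p.2) * g p.1 p.2) ^ 2 =
      c p.1 p.2 * g p.1 p.2 ^ 2 := by
    intro g p
    rw [mul_pow, Real.sq_sqrt (hc _ _)]
  simp_rw [h1, h2 e, h2 δ] at h
  rw [Fintype.sum_prod_type (fun p : V × V => c p.1 p.2 * (e p.1 p.2 * δ p.1 p.2)),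
    Fintype.sum_prod_type (fun p : V × V => c p.1 p.2 * e p.1 p.2 ^ 2),
    Fintype.sum_prod_type (fun p : V × V => c p.1 p.2 * δ p.1 p.2 ^ 2)] at h
  exact h

/-- **The square root bound.** -/
theorem gl_main [Nontrivial V] (hr : Coherent r) (hcm : Comm r) {c : V → V → ℝ}
    (hc : ∀ i j, 0 ≤ c i j) (hs : ∀ i j, c i j = c j i) (hcr : ClassFun r c) {D : ℕ}
    (hD1 : 1 ≤ D) (hD : ShortChains r c D) {d : V → V → ℝ} (hneg : IsNegTypeSemimetric d) :
    phi c * ∑ x, ∑ y, d x y ≤ 461 * Real.sqrt D * ∑ x, ∑ y, c x y * d x y := by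
  classical
  obtain ⟨⟨X, hX⟩, ht⟩ := hneg
  have h0 : ∀ x, d x x = 0 := fun x => by rw [hX]; simp
  have hd : ∀ x y, d x y = d y x := fun x y => by rw [hX, hX, norm_sub_rev]
  have hd0 : ∀ x y, 0 ≤ d x y := fun x y => by rw [hX]; positivity
  obtain ⟨v, hv⟩ := coords hX
  have hD1' : (1 : ℝ) ≤ D := by exact_mod_cast hD1
  have hsD : 1 ≤ Real.sqrt D := Real.one_le_sqrt.2 hD1'
  set Cd := ∑ x, ∑ y, c x y * d x y with hCd
  have hCd0 : 0 ≤ Cd :=
    sum_nonneg fun x _ => sum_nonneg fun y _ => mul_nonneg (hc x y) (hd0 x y)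
  set n : ℝ := (Fintype.card V : ℝ) with hn
  have hn0 : 0 < n := by
    rw [hn]
    exact_mod_cast Fintype.card_pos
  set S := ∑ x, ∑ y, d x y with hS
  have hS0 : 0 ≤ S := sum_nonneg fun x _ => sum_nonneg fun y _ => hd0 x y
  rcases hS0.eq_or_lt with hz | hSpos
  · rw [← hz, mul_zero]
    positivity
  set s := Real.sqrt (S / (512 * n ^ 2)) with hs'
  have hs2 : s ^ 2 = S / (512 * n ^ 2) := Real.sq_sqrt (by positivity)
  have hspos : 0 < s := Real.sqrt_pos.2 (by positivity)
  have hSs : S = 512 * s ^ 2 * n ^ 2 := by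
    rw [hs2]; field_simp
  have hphi := phi_nonneg hc
  by_cases hcase : ∃ x0, n ≤ 2 * (univ.filter fun y => d x0 y ≤ 64 * s ^ 2).card
  · obtain ⟨x0, hx0⟩ := hcase
    have h1 := dense hc hs hd0 hd ht x0 (ρ := 64 * s ^ 2)
      (by rw [← hn, ← hS, hSs]; exact le_of_eq (by ring)) hx0
    rw [← hS, ← hCd] at h1
    have h2 : 16 * Cd ≤ 461 * Real.sqrt D * Cd := by
      apply mul_le_mul_of_nonneg_right _ hCd0
      linarith
    exact h1.trans h2
  push Not at hcase
  obtain ⟨x0⟩ : Nonempty V := inferInstance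
  obtain ⟨χ, N, hb, hχc, hχ1, hχ2⟩ := exists_blk hr hcm hc hs hcr hD h0 hd ht
    (τ := s ^ 2 / D) (by positivity) x0
  have hN := hb.pos
  have hDτ : (D : ℝ) * (s ^ 2 / D) = s ^ 2 := by field_simp
  set w : V → Fin (Fintype.card V) → ℝ := fun x l => ave χ N (fun y => v y l) x with hw
  -- (a)
  have ha : 4 * s * n ^ 2 ≤ ∑ x, ∑ y, dist2 (v x) (v y) := by
    have h1 : ∀ x, 4 * s * n ≤ ∑ y, dist2 (v x) (v y) := by
      intro x
      have h2 : ∀ y ∈ univ.filter (fun y => ¬ d x y ≤ 64 * s ^ 2), 8 * s ≤ dist2 (v x) (v y) := by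
        intro y hy
        rw [mem_filter, not_le] at hy
        apply le_of_sq_le_sq _ (dist2_nonneg _ _)
        rw [dist2_sq, hv]
        nlinarith [hy.2]
      have h3 := card_nsmul_le_sum _ _ _ h2
      rw [nsmul_eq_mul] at h3
      have h4 : ∑ y ∈ univ.filter (fun y => ¬ d x y ≤ 64 * s ^ 2), dist2 (v x) (v y) ≤
          ∑ y, dist2 (v x) (v y) :=
        sum_le_sum_of_subset_of_nonneg (subset_univ _) fun y _ _ => dist2_nonneg _ _
      have h5 : ((univ.filter fun y => d x y ≤ 64 * s ^ 2).card : ℝ) +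
          (univ.filter fun y => ¬ d x y ≤ 64 * s ^ 2).card = n := by
        rw [hn, ← card_univ (α := V),
          ← card_filter_add_card_filter_not (s := (univ : Finset V)) (fun y => d x y ≤ 64 * s ^ 2)]
        push_cast
        rfl
      have h6 := hcase x
      have h7 : n / 2 ≤ (univ.filter fun y => ¬ d x y ≤ 64 * s ^ 2).card := by linarith
      have h8 := mul_le_mul_of_nonneg_right h7 (by positivity : 0 ≤ 8 * s)
      linarith
    calc 4 * s * n ^ 2 = ∑ _x : V, 4 * s * n := by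
          rw [sum_const, card_univ, nsmul_eq_mul, ← hn]; ring
      _ ≤ _ := sum_le_sum fun x _ => h1 x
  -- (b)
  have hbb : ∑ x, dist2 (v x) (w x) ^ 2 ≤ s ^ 2 * n := by
    have h1 : ∀ x, dist2 (v x) (w x) ^ 2 ≤ (∑ y, χ x y * d x y) / N := by
      intro x
      rw [dist2_sq]
      calc ∑ l, (v x l - w x l) ^ 2 ≤ ∑ l, (∑ y, χ x y * (v x l - v y l) ^ 2) / N :=
            sum_le_sum fun l _ => variance hb (fun y => v y l) x
        _ = _ := by
            rw [← sum_div, sum_comm]
            congr 1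
            apply sum_congr rfl; intro y _
            rw [← mul_sum, hv]
    calc ∑ x, dist2 (v x) (w x) ^ 2 ≤ ∑ x, (∑ y, χ x y * d x y) / N :=
          sum_le_sum fun x _ => h1 x
      _ = (∑ x, ∑ y, χ x y * avg r d x y) / N := by
          rw [← sum_div, avg_sum hχc d]
      _ ≤ (∑ x, ∑ y, χ x y * s ^ 2) / N := by
          apply div_le_div_of_nonneg_right _ hN.le
          refine sum_le_sum fun x _ => sum_le_sum fun y _ => ?_
          rw [← hDτ]
          exact hχ1 x y
      _ = s ^ 2 * n := by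
          simp_rw [← sum_mul, hb.size]
          rw [sum_const, card_univ, nsmul_eq_mul, ← hn]
          field_simp
  -- (c)
  have hcc : ∑ x, dist2 (v x) (w x) ≤ n * s := by
    apply le_of_sq_le_sq _ (by positivity)
    have h1 := sq_sum_le_card_mul_sum_sq (s := (univ : Finset V))
      (f := fun x => dist2 (v x) (w x))
    rw [card_univ, ← hn] at h1
    calc _ ≤ _ := h1
      _ ≤ n * (s ^ 2 * n) := mul_le_mul_of_nonneg_left hbb hn0.le
      _ = _ := by ring
  -- (d)
  have hdd : 2 * s * n ^ 2 ≤ ∑ x, ∑ y, dist2 (w x) (w y) := by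
    have h1 : ∑ x, ∑ y, dist2 (v x) (v y) ≤ ∑ x, ∑ y, dist2 (w x) (w y) +
        2 * n * ∑ x, dist2 (v x) (w x) := by
      calc ∑ x, ∑ y, dist2 (v x) (v y) ≤
            ∑ x, ∑ y, (dist2 (w x) (w y) + (dist2 (v x) (w x) + dist2 (v y) (w y))) := by
            refine sum_le_sum fun x _ => sum_le_sum fun y _ => ?_
            have h2 := dist2_triangle (v x) (w x) (v y)
            have h3 := dist2_triangle (w x) (w y) (v y)
            rw [dist2_symm (w y) (v y)] at h3
            linarith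
        _ = _ := by
            simp only [sum_add_distrib, sum_const, card_univ, nsmul_eq_mul]
            rw [← mul_sum, ← hn]
            ring
    have h2 : 2 * n * ∑ x, dist2 (v x) (w x) ≤ 2 * n * (n * s) :=
      mul_le_mul_of_nonneg_left hcc (by positivity)
    nlinarith [ha, h1, h2]
  -- (e)
  set T := ∑ x, ∑ y, c x y * dist2 (w x) (w y) with hT
  have hT0 : 0 ≤ T :=
    sum_nonneg fun x _ => sum_nonneg fun y _ => mul_nonneg (hc x y) (dist2_nonneg _ _)
  have hTT : s ^ 2 * T ^ 2 ≤ D * Cd ^ 2 := by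
    set e : V → V → ℝ := fun x y => if χ x y = 0 then 1 else 0 with he
    have h1 : T = ∑ x, ∑ y, c x y * (e x y * dist2 (w x) (w y)) := by
      rw [hT]
      refine sum_congr rfl fun x _ => sum_congr rfl fun y _ => ?_
      by_cases h : χ x y = 0
      · simp [he, h]
      · have h2 : dist2 (w x) (w y) = 0 := by
          unfold dist2
          have : ∀ l, w x l - w y l = 0 := by
            intro l
            rw [hw]
            simp only
            rw [ave_const hb _ h, sub_self]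
          simp [this]
        rw [h2]; simp
    have h2 := cauchy hc e fun x y => dist2 (w x) (w y)
    rw [← h1] at h2
    have h3 : s ^ 2 * ∑ x, ∑ y, c x y * e x y ^ 2 ≤ D * Cd := by
      rw [hCd, ← avg_sum hcr d, mul_sum, mul_sum]
      refine sum_le_sum fun x _ => ?_
      rw [mul_sum, mul_sum]
      refine sum_le_sum fun y _ => ?_
      by_cases h : χ x y = 0
      · have h4 := hχ2 x y h
        have h5 : e x y ^ 2 = 1 := by simp [he, h]
        rw [h5]
        have h6 : (D : ℝ) * (c x y * (s ^ 2 / D)) ≤ D * (c x y * avg r d x y) :=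
          mul_le_mul_of_nonneg_left h4 (by positivity)
        have h7 : (D : ℝ) * (c x y * (s ^ 2 / D)) = s ^ 2 * (c x y * 1) := by field_simp
        linarith
      · have h5 : e x y ^ 2 = 0 := by simp [he, h]
        rw [h5]
        have := avg_nonneg (r := r) hd0 x y
        have := hc x y
        simp only [mul_zero]
        positivity
    have h4 : ∑ x, ∑ y, c x y * dist2 (w x) (w y) ^ 2 ≤ Cd := by
      have h5 : ∀ u : V → Fin (Fintype.card V) → ℝ,
          ∑ x, ∑ y, c x y * dist2 (u x) (u y) ^ 2 = ∑ l, ∑ x, ∑ y, c x y * (u x l - u y l) ^ 2 := by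
        intro u
        symm
        rw [sum_comm]
        refine sum_congr rfl fun x _ => ?_
        rw [sum_comm]
        refine sum_congr rfl fun y _ => ?_
        rw [dist2_sq, mul_sum]
      have h6 : Cd = ∑ x, ∑ y, c x y * dist2 (v x) (v y) ^ 2 := by
        rw [hCd]
        refine sum_congr rfl fun x _ => sum_congr rfl fun y _ => ?_
        rw [dist2_sq, hv]
      rw [h6, h5, h5]
      refine sum_le_sum fun l _ => ?_
      exact energy hb hc hs fun y => v y l
    have h5 : 0 ≤ ∑ x, ∑ y, c x y * dist2 (w x) (w y) ^ 2 :=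
      sum_nonneg fun x _ => sum_nonneg fun y _ => mul_nonneg (hc x y) (sq_nonneg _)
    calc s ^ 2 * T ^ 2 ≤ s ^ 2 * ((∑ x, ∑ y, c x y * e x y ^ 2) *
          ∑ x, ∑ y, c x y * dist2 (w x) (w y) ^ 2) :=
          mul_le_mul_of_nonneg_left h2 (by positivity)
      _ = (s ^ 2 * ∑ x, ∑ y, c x y * e x y ^ 2) * ∑ x, ∑ y, c x y * dist2 (w x) (w y) ^ 2 := by
          ring
      _ ≤ (D * Cd) * Cd := mul_le_mul h3 h4 h5 (by positivity)
      _ = _ := by ring
  have hTle : s * T ≤ Real.sqrt D * Cd := by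
    apply le_of_sq_le_sq _ (by positivity)
    rw [mul_pow, mul_pow, Real.sq_sqrt (Nat.cast_nonneg D)]
    exact hTT
  -- (f)
  have hf := coarea_l2 hc hs w
  rw [← hT] at hf
  have h1 : phi c * (5 / 9 * (2 * s * n ^ 2)) ≤ T :=
    (mul_le_mul_of_nonneg_left (mul_le_mul_of_nonneg_left hdd (by norm_num)) hphi).trans hf
  have h2 := mul_le_mul_of_nonneg_left h1 hspos.le
  have h3 : 10 / 9 * (phi c * (s ^ 2 * n ^ 2)) ≤ Real.sqrt D * Cd := by
    calc _ = s * (phi c * (5 / 9 * (2 * s * n ^ 2))) := by ring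
      _ ≤ s * T := h2
      _ ≤ _ := hTle
  have h4 : 0 ≤ Real.sqrt D * Cd := by positivity
  calc phi c * S = 512 * (phi c * (s ^ 2 * n ^ 2)) := by rw [hSs]; ring
    _ ≤ 461 * (Real.sqrt D * Cd) := by linarith
    _ = _ := by ring

end Vale.Agent.P318.H743
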