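import Vale.Agent.P318.R2.H743.Base

/-! Coherent configurations: averaging over classes, chains inside unions of classes. -/

open Finset

namespace Vale.Agent.P318.H743

/-- A coherent configuration on the finite set `V`, given by the class `r x y` of each ordered
pair: the diagonal is a union of classes, the class of `(x, y)` determines the class of `(y, x)`,
and the number of `z` with `(x, z)` in class `i` and `(z, y)` in class `j` depends only on `i`,
`j` and the class of `(x, y)`. -/
structure Coherent {V ι : Type*} [Fintype V] [DecidableEq ι] (r : V → V → ι) : Prop where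
  diag : ∀ x y z, r x x = r y z → y = z
  rev : ∀ x y x' y', r x y = r x' y' → r y x = r y' x'
  count : ∀ x y x' y', r x y = r x' y' → ∀ i j,
    (univ.filter fun z => r x z = i ∧ r z y = j).card =
      (univ.filter fun z => r x' z = i ∧ r z y' = j).card

/-- The configuration is commutative: the number of `z` with `(x, z)` in class `i` and `(z, y)` in
class `j` is symmetric in `i`, `j`. -/
def Comm {V ι : Type*} [Fintype V] [DecidableEq ι] (r : V → V → ι) : Prop :=
  ∀ x y i j, (univ.filter fun z => r x z = i ∧ r z y = j).card =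
    (univ.filter fun z => r x z = j ∧ r z y = i).card

/-- `c` is constant on the classes of `r`. -/
def ClassFun {V ι : Type*} (r : V → V → ι) (c : V → V → ℝ) : Prop :=
  ∀ x y x' y', r x y = r x' y' → c x y = c x' y'

/-- `y` is reached from `x` by at most `m` steps along `R`. -/
def Chain {V : Type*} (R : V → V → Prop) : ℕ → V → V → Prop
  | 0, x, y => x = y
  | m + 1, x, y => ∃ z, Chain R m x z ∧ (z = y ∨ R z y)

/-- In every symmetric union `J` of classes on which `c` does not vanish, two points which are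
joined by some chain are joined by a chain of at most `D` steps. -/
def ShortChains {V ι : Type*} (r : V → V → ι) (c : V → V → ℝ) (D : ℕ) : Prop :=
  ∀ J : Set ι, (∀ x y, r x y ∈ J → c x y ≠ 0) → (∀ x y, r x y ∈ J → r y x ∈ J) →
    ∀ (m : ℕ) (x y : V), Chain (fun a b => r a b ∈ J) m x y → Chain (fun a b => r a b ∈ J) D x y

section chains

variable {V : Type*} {R : V → V → Prop}

lemma chain_refl (m : ℕ) (x : V) : Chain R m x x := by
  induction m with
  | zero => rfl
  | succ m ih => exact ⟨x, ih, Or.inl rfl⟩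

lemma chain_mono {m k : ℕ} (h : m ≤ k) {x y : V} (hc : Chain R m x y) : Chain R k x y := by
  induction k, h using Nat.le_induction with
  | base => exact hc
  | succ k _ ih => exact ⟨y, ih, Or.inl rfl⟩

lemma chain_trans {m k : ℕ} {x y z : V} (h1 : Chain R m x y) (h2 : Chain R k y z) :
    Chain R (m + k) x z := by
  induction k generalizing z with
  | zero =>
    have : y = z := h2
    rw [← this]
    exact h1
  | succ k ih =>
    obtain ⟨w, hw, hw'⟩ := h2
    exact ⟨w, ih hw, hw'⟩

lemma chain_one {x y : V} (h : R x y) : Chain R 1 x y := ⟨x, rfl, Or.inr h⟩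

lemma chain_symm (hR : ∀ a b, R a b → R b a) {m : ℕ} {x y : V} (h : Chain R m x y) :
    Chain R m y x := by
  induction m generalizing y with
  | zero => exact (show x = y from h).symm
  | succ m ih =>
    obtain ⟨z, hz, hz'⟩ := h
    rw [Nat.add_comm]
    rcases hz' with rfl | hz'
    · exact chain_mono (by omega) (ih hz)
    · exact chain_trans (chain_one (hR _ _ hz')) (ih hz)

lemma chain_bound {f : V → V → ℝ} (h0 : ∀ x, f x x = 0) (ht : ∀ x y z, f x z ≤ f x y + f y z)
    {δ : ℝ} (hδ : 0 ≤ δ) (hR : ∀ a b, R a b → f a b ≤ δ) {m : ℕ} {x y : V}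
    (h : Chain R m x y) : f x y ≤ m * δ := by
  induction m generalizing y with
  | zero =>
    have : x = y := h
    rw [this, h0]
    simp
  | succ m ih =>
    obtain ⟨z, hz, hz'⟩ := h
    have h1 := ih hz
    push_cast
    rcases hz' with rfl | hz'
    · linarith
    · linarith [ht x z y, hR z y hz']

lemma chain_congr {R' : V → V → Prop} (h : ∀ a b, R a b ↔ R' a b) {m : ℕ} {x y : V} :
    Chain R m x y ↔ Chain R' m x y := by
  have : R = R' := by
    funext a b
    exact propext (h a b)
  rw [this]

end chains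

variable {V ι : Type*} [Fintype V] [DecidableEq V] [DecidableEq ι] {r : V → V → ι}

lemma chain_class (hr : Coherent r) (J : Set ι) {m : ℕ} {x y x' y' : V} (h : r x y = r x' y')
    (hc : Chain (fun a b => r a b ∈ J) m x y) : Chain (fun a b => r a b ∈ J) m x' y' := by
  induction m generalizing y y' with
  | zero =>
    have h1 : x = y := hc
    rw [← h1] at h
    exact hr.diag _ _ _ h
  | succ m ih =>
    obtain ⟨z, hz, hz'⟩ := hc
    rcases hz' with rfl | hz'
    · exact ⟨y', ih h hz, Or.inl rfl⟩
    · have h1 := hr.count x y x' y' h (r x z) (r z y)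
      have h2 : 0 < (univ.filter fun w => r x w = r x z ∧ r w y = r z y).card :=
        card_pos.2 ⟨z, by simp⟩
      rw [h1] at h2
      obtain ⟨w, hw⟩ := card_pos.1 h2
      rw [mem_filter] at hw
      refine ⟨w, ih hw.2.1.symm hz, Or.inr ?_⟩
      show r w y' ∈ J
      rw [hw.2.2]
      exact hz'

/-- symmetric configurations are commutative -/
lemma comm_of_symm (hr : Coherent r) (hsym : ∀ x y, r x y = r y x) : Comm r := by
  intro x y i j
  rw [hr.count x y y x (hsym x y) i j]
  congr 1
  ext z
  simp only [mem_filter, mem_univ, true_and]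
  rw [hsym y z, hsym z x]
  exact and_comm

/-- with `k + 1` classes of unordered pairs, `k` steps suffice -/
theorem shortChains_of_pairs {κ : Type*} [Fintype κ] (hr : Coherent r) (s : V → V → κ)
    (hs : ∀ x y x' y', s x y = s x' y' → r x y = r x' y' ∨ r x y = r y' x')
    (c : V → V → ℝ) {k : ℕ} (hk : Fintype.card κ ≤ k + 1) : ShortChains r c k := by
  classical
  intro J _ hJs m0 x0 y0 h0
  set R : V → V → Prop := fun a b => r a b ∈ J with hR
  set F : ℕ → Finset κ := fun m => univ.filter fun i => ∃ x y, s x y = i ∧ Chain R m x y with hF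
  have hmono : ∀ m, F m ⊆ F (m + 1) := by
    intro m i hi
    rw [hF, mem_filter] at hi ⊢
    obtain ⟨_, x, y, h1, h2⟩ := hi
    exact ⟨mem_univ _, x, y, h1, chain_mono (Nat.le_succ m) h2⟩
  have hex : ∃ m ≤ k, F m = F (m + 1) := by
    by_contra hcon
    push Not at hcon
    have hcard : ∀ m ≤ k + 1, m + 1 ≤ (F m).card := by
      intro m
      induction m with
      | zero =>
        intro _
        exact card_pos.2 ⟨s x0 x0, mem_filter.2 ⟨mem_univ _, x0, x0, rfl, rfl⟩⟩
      | succ m ih =>
        intro hm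
        have h1 := ih (by omega)
        have h2 : F m ⊂ F (m + 1) := (hmono m).ssubset_of_ne (hcon m (by omega))
        have := card_lt_card h2
        omega
    have h1 := hcard (k + 1) le_rfl
    have h2 : (F (k + 1)).card ≤ Fintype.card κ := card_le_univ _
    omega
  obtain ⟨m, hmk, hm⟩ := hex
  have hstep : ∀ x y, Chain R (m + 1) x y → Chain R m x y := by
    intro x y h
    have h1 : s x y ∈ F (m + 1) := mem_filter.2 ⟨mem_univ _, x, y, rfl, h⟩
    rw [← hm] at h1
    obtain ⟨_, x', y', h2, h3⟩ := mem_filter.1 h1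
    rcases hs _ _ _ _ h2 with h4 | h4
    · exact chain_class hr J h4 h3
    · exact chain_symm hJs (chain_class hr J h4 h3)
  have hall : ∀ j x y, Chain R j x y → Chain R m x y := by
    intro j
    induction j with
    | zero =>
      intro x y h
      exact chain_mono (Nat.zero_le m) h
    | succ j ih =>
      intro x y h
      obtain ⟨z, hz, hz'⟩ := h
      exact hstep x y ⟨z, ih x z hz, hz'⟩
  exact chain_mono hmk (hall m0 x0 y0 h0)

/-! ### Averages over classes -/

/-- the mean of `d` over the class of `(x, y)` -/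
noncomputable def avg (r : V → V → ι) (d : V → V → ℝ) (x y : V) : ℝ :=
  (∑ p ∈ univ.filter (fun p : V × V => r p.1 p.2 = r x y), d p.1 p.2) /
    ((univ.filter fun p : V × V => r p.1 p.2 = r x y).card : ℝ)

lemma avg_class (r : V → V → ι) (d : V → V → ℝ) : ClassFun r (avg r d) := by
  intro x y x' y' h
  unfold avg
  rw [h]

lemma card_pos' (r : V → V → ι) (x y : V) :
    (0 : ℝ) < ((univ.filter fun p : V × V => r p.1 p.2 = r x y).card : ℝ) := by
  have : 0 < (univ.filter fun p : V × V => r p.1 p.2 = r x y).card :=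
    card_pos.2 ⟨(x, y), by simp⟩
  exact_mod_cast this

lemma avg_nonneg {d : V → V → ℝ} (h0 : ∀ x y, 0 ≤ d x y) (x y : V) : 0 ≤ avg r d x y :=
  div_nonneg (sum_nonneg fun _ _ => h0 _ _) (card_pos' r x y).le

lemma avg_diag (hr : Coherent r) {d : V → V → ℝ} (h0 : ∀ x, d x x = 0) (x : V) :
    avg r d x x = 0 := by
  unfold avg
  rw [sum_eq_zero, zero_div]
  intro p hp
  rw [mem_filter] at hp
  rw [hr.diag x p.1 p.2 hp.2.symm, h0]

lemma avg_symm (hr : Coherent r) {d : V → V → ℝ} (hd : ∀ x y, d x y = d y x) (x y : V) :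
    avg r d x y = avg r d y x := by
  unfold avg
  have h1 : (univ.filter fun p : V × V => r p.1 p.2 = r x y).map
      (Equiv.prodComm V V).toEmbedding = univ.filter fun p : V × V => r p.1 p.2 = r y x := by
    ext ⟨a, b⟩
    simp only [mem_map_equiv, mem_filter, mem_univ, true_and, Equiv.prodComm_symm,
      Equiv.prodComm_apply, Prod.swap_prod_mk]
    exact ⟨fun h => hr.rev _ _ _ _ h, fun h => hr.rev _ _ _ _ h⟩
  rw [← h1, card_map, sum_map]
  congr 1
  apply sum_congr rfl
  intro p _
  simp [hd p.1 p.2]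

lemma avg_sum {F : V → V → ℝ} (hF : ClassFun r F) (d : V → V → ℝ) :
    ∑ x, ∑ y, F x y * avg r d x y = ∑ x, ∑ y, F x y * d x y := by
  rw [← Fintype.sum_prod_type' (fun x y => F x y * avg r d x y),
    ← Fintype.sum_prod_type' (fun x y => F x y * d x y)]
  have h1 : ∀ p : V × V, F p.1 p.2 * avg r d p.1 p.2 =
      ∑ q : V × V, if r q.1 q.2 = r p.1 p.2 then F q.1 q.2 * d q.1 q.2 /
        ((univ.filter fun s : V × V => r s.1 s.2 = r q.1 q.2).card : ℝ) else 0 := by
    intro p
    unfold avg
    rw [← sum_filter, mul_div_assoc', mul_sum, sum_div]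
    apply sum_congr rfl
    intro q hq
    rw [mem_filter] at hq
    rw [hF _ _ _ _ hq.2, hq.2]
  simp_rw [h1]
  rw [sum_comm]
  apply sum_congr rfl
  intro q _
  have h2 : ∀ p : V × V, (r q.1 q.2 = r p.1 p.2) = (r p.1 p.2 = r q.1 q.2) := fun p =>
    propext eq_comm
  simp_rw [h2]
  rw [← sum_filter, sum_const, nsmul_eq_mul]
  have := card_pos' r q.1 q.2
  field_simp

lemma avg_weight {W : V → V → ℝ} {x0 y0 : V} {κ : ℝ}
    (hW : ∀ x y, W x y = if r x y = r x0 y0 then κ else 0) (g : V → V → ℝ) :
    ∑ x, ∑ y, W x y * g x y = (∑ x, ∑ y, W x y) * avg r g x0 y0 := by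
  have hW' : ClassFun r W := by
    intro x y x' y' h
    rw [hW, hW, h]
  rw [← avg_sum hW' g, sum_mul]
  apply sum_congr rfl
  intro x _
  rw [sum_mul]
  apply sum_congr rfl
  intro y _
  by_cases h : r x y = r x0 y0
  · rw [avg_class r g _ _ _ _ h]
  · rw [hW, if_neg h, zero_mul, zero_mul]

theorem avg_triangle (hr : Coherent r) {d : V → V → ℝ}
    (ht : ∀ x y z, d x z ≤ d x y + d y z) (x0 z0 y0 : V) :
    avg r d x0 y0 ≤ avg r d x0 z0 + avg r d z0 y0 := by
  set P : V → V → V → ℝ := fun x y z =>
    if r x z = r x0 z0 ∧ r z y = r z0 y0 ∧ r x y = r x0 y0 then 1 else 0 with hP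
  have hP0 : ∀ x y z, 0 ≤ P x y z := fun x y z => by
    rw [hP]; dsimp only; split_ifs <;> norm_num
  -- the three projections
  have hxy : ∀ x y, ∑ z, P x y z = if r x y = r x0 y0 then
      ((univ.filter fun z => r x0 z = r x0 z0 ∧ r z y0 = r z0 y0).card : ℝ) else 0 := by
    intro x y
    by_cases h : r x y = r x0 y0
    · rw [if_pos h, ← hr.count x y x0 y0 h]
      rw [hP]
      simp only [h, and_true]
      rw [← sum_filter, sum_const, nsmul_eq_mul, mul_one]
    · rw [if_neg h]
      apply sum_eq_zero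
      intro z _
      rw [hP]
      simp [h]
  have hxz : ∀ x z, ∑ y, P x y z = if r x z = r x0 z0 then
      ((univ.filter fun y => r x0 y = r x0 y0 ∧ r y z0 = r y0 z0).card : ℝ) else 0 := by
    intro x z
    by_cases h : r x z = r x0 z0
    · rw [if_pos h, ← hr.count x z x0 z0 h]
      rw [hP]
      simp only [h, true_and]
      rw [← sum_filter, sum_const, nsmul_eq_mul, mul_one]
      congr 2
      ext y
      simp only [mem_filter, mem_univ, true_and]
      constructor
      · rintro ⟨h1, h2⟩
        exact ⟨h2, hr.rev _ _ _ _ h1⟩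
      · rintro ⟨h1, h2⟩
        exact ⟨hr.rev _ _ _ _ h2, h1⟩
    · rw [if_neg h]
      apply sum_eq_zero
      intro y _
      rw [hP]
      simp [h]
  have hzy : ∀ z y, ∑ x, P x y z = if r z y = r z0 y0 then
      ((univ.filter fun x => r z0 x = r z0 x0 ∧ r x y0 = r x0 y0).card : ℝ) else 0 := by
    intro z y
    by_cases h : r z y = r z0 y0
    · rw [if_pos h, ← hr.count z y z0 y0 h]
      rw [hP]
      simp only [h, true_and]
      rw [← sum_filter, sum_const, nsmul_eq_mul, mul_one]
      congr 2
      ext x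
      simp only [mem_filter, mem_univ, true_and]
      constructor
      · rintro ⟨h1, h2⟩
        exact ⟨hr.rev _ _ _ _ h1, h2⟩
      · rintro ⟨h1, h2⟩
        exact ⟨hr.rev _ _ _ _ h1, h2⟩
    · rw [if_neg h]
      apply sum_eq_zero
      intro x _
      rw [hP]
      simp [h]
  set M := ∑ x, ∑ y, ∑ z, P x y z with hM
  have e1 : ∑ x, ∑ y, (∑ z, P x y z) * d x y = M * avg r d x0 y0 := avg_weight hxy d
  have e2 : ∑ x, ∑ z, (∑ y, P x y z) * d x z = M * avg r d x0 z0 := by
    rw [avg_weight hxz d, hM]
    congr 1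
    apply sum_congr rfl
    intro x _
    rw [sum_comm]
  have e3 : ∑ z, ∑ y, (∑ x, P x y z) * d z y = M * avg r d z0 y0 := by
    rw [avg_weight hzy d, hM]
    congr 1
    rw [sum_comm]
    have : ∀ y, ∑ z, ∑ x, P x y z = ∑ x, ∑ z, P x y z := fun y => sum_comm
    simp_rw [this]
    rw [sum_comm]
  have f2 : ∑ x, ∑ z, (∑ y, P x y z) * d x z = ∑ x, ∑ y, ∑ z, P x y z * d x z := by
    apply sum_congr rfl
    intro x _
    simp_rw [sum_mul]
    rw [sum_comm]
  have f3 : ∑ z, ∑ y, (∑ x, P x y z) * d z y = ∑ x, ∑ y, ∑ z, P x y z * d z y := by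
    simp_rw [sum_mul]
    rw [sum_comm]
    have : ∀ y, ∑ z, ∑ x, P x y z * d z y = ∑ x, ∑ z, P x y z * d z y := fun y => sum_comm
    simp_rw [this]
    rw [sum_comm]
  have f1 : ∑ x, ∑ y, (∑ z, P x y z) * d x y = ∑ x, ∑ y, ∑ z, P x y z * d x y := by
    simp_rw [sum_mul]
  have g : ∑ x, ∑ y, ∑ z, P x y z * d x y ≤
      ∑ x, ∑ y, ∑ z, P x y z * d x z + ∑ x, ∑ y, ∑ z, P x y z * d z y := by
    simp_rw [← sum_add_distrib, ← mul_add]
    exact sum_le_sum fun x _ => sum_le_sum fun y _ => sum_le_sum fun z _ =>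
      mul_le_mul_of_nonneg_left (ht x z y) (hP0 x y z)
  rw [← f1, ← f2, ← f3, e1, e2, e3, ← mul_add] at g
  have hMpos : 0 < M := by
    have h1 : P x0 y0 z0 = 1 := by rw [hP]; simp
    have h2 : P x0 y0 z0 ≤ M := by
      calc P x0 y0 z0 ≤ ∑ z, P x0 y0 z :=
            single_le_sum (fun z _ => hP0 x0 y0 z) (mem_univ z0)
        _ ≤ ∑ y, ∑ z, P x0 y z :=
            single_le_sum (f := fun y => ∑ z, P x0 y z)
              (fun y _ => sum_nonneg fun z _ => hP0 x0 y z) (mem_univ y0)
        _ ≤ M := single_le_sum (f := fun x => ∑ y, ∑ z, P x y z)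
              (fun x _ => sum_nonneg fun y _ => sum_nonneg fun z _ => hP0 x y z) (mem_univ x0)
    linarith
  exact le_of_mul_le_mul_left g hMpos

end Vale.Agent.P318.H743
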