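import Vale.Agent.P318.R2.H743.Blocks

/-! Symmetric configurations: block averages and the square root bound. -/

open Finset

set_option linter.unusedSectionVars false

namespace Vale.Agent.P318.H743

open Vale.Agent.P318.H867 Vale.Agent.P318.H724

variable {V ι : Type*} [Fintype V] [DecidableEq V] [DecidableEq ι] {r : V → V → ι}

lemma homog (hr : Coherent r) (hcm : Comm r) (x y : V) : r x x = r y y := by
  have h1 := hcm x y (r x x) (r x y)
  have h2 : 0 < (univ.filter fun z => r x z = r x x ∧ r z y = r x y).card :=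
    card_pos.2 ⟨x, by simp⟩
  rw [h1] at h2
  obtain ⟨z, hz⟩ := card_pos.1 h2
  rw [mem_filter] at hz
  have h3 := hr.diag x z y hz.2.2.symm
  rw [h3] at hz
  exact hz.2.2.symm

lemma factor {f : V → V → ℝ} (hf : ClassFun r f) : ∃ F : ι → ℝ, ∀ x y, f x y = F (r x y) := by
  have h : Function.FactorsThrough (fun p : V × V => f p.1 p.2) (fun p : V × V => r p.1 p.2) :=
    fun a b hab => hf _ _ _ _ hab
  exact ⟨Function.extend (fun p : V × V => r p.1 p.2) (fun p : V × V => f p.1 p.2) 0,
    fun x y => (h.extend_apply 0 (x, y)).symm⟩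

lemma sum_pair (hr : Coherent r) (F : ι → ι → ℝ) {x z x' z' : V} (h : r x z = r x' z') :
    ∑ y, F (r x y) (r y z) = ∑ y, F (r x' y) (r y z') := by
  classical
  set T : Finset (ι × ι) := univ.image (fun y => (r x y, r y z)) ∪
    univ.image (fun y => (r x' y, r y z')) with hT
  have h1 : ∑ b ∈ T, ∑ y with (r x y, r y z) = b, F (r x y) (r y z) =
      ∑ y, F (r x y) (r y z) :=
    sum_fiberwise_of_maps_to (fun y _ => mem_union_left _ (mem_image_of_mem _ (mem_univ y))) _
  have h2 : ∑ b ∈ T, ∑ y with (r x' y, r y z') = b, F (r x' y) (r y z') =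
      ∑ y, F (r x' y) (r y z') :=
    sum_fiberwise_of_maps_to (fun y _ => mem_union_right _ (mem_image_of_mem _ (mem_univ y))) _
  rw [← h1, ← h2]
  apply sum_congr rfl
  rintro ⟨i, j⟩ _
  have h3 : ∀ u w : V, ∑ y with (r u y, r y w) = (i, j), F (r u y) (r y w) =
      ((univ.filter fun y => r u y = i ∧ r y w = j).card : ℝ) * F i j := by
    intro u w
    rw [← nsmul_eq_mul, ← sum_const]
    apply sum_congr
    · ext y; simp
    · intro y hy
      simp only [mem_filter, mem_univ, true_and] at hy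
      rw [hy.1, hy.2]
  rw [h3, h3, hr.count x z x' z' h]

lemma sum_mul_class (hr : Coherent r) {f g : V → V → ℝ} (hf : ClassFun r f) (hg : ClassFun r g)
    {x z x' z' : V} (h : r x z = r x' z') :
    ∑ y, f x y * g y z = ∑ y, f x' y * g y z' := by
  obtain ⟨F, hF⟩ := factor hf
  obtain ⟨G, hG⟩ := factor hg
  simp_rw [hF, hG]
  exact sum_pair hr (fun i j => F i * G j) h

lemma sum_class (hr : Coherent r) {f : V → V → ℝ} (hf : ClassFun r f)
    {x x' : V} (h : r x x = r x' x') : ∑ y, f x y = ∑ y, f x' y := by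
  have := sum_mul_class hr (g := fun _ _ => 1) hf (fun _ _ _ _ _ => rfl) h
  simpa using this

lemma sum_pair_comm (hcm : Comm r) (F : ι → ι → ℝ) (x z : V) :
    ∑ y, F (r x y) (r y z) = ∑ y, F (r y z) (r x y) := by
  classical
  set T : Finset (ι × ι) := univ.image (fun y => (r x y, r y z)) ∪
    univ.image (fun y => (r y z, r x y)) with hT
  have h1 : ∑ b ∈ T, ∑ y with (r x y, r y z) = b, F (r x y) (r y z) =
      ∑ y, F (r x y) (r y z) :=
    sum_fiberwise_of_maps_to (fun y _ => mem_union_left _ (mem_image_of_mem _ (mem_univ y))) _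
  have h2 : ∑ b ∈ T, ∑ y with (r y z, r x y) = b, F (r y z) (r x y) =
      ∑ y, F (r y z) (r x y) :=
    sum_fiberwise_of_maps_to (fun y _ => mem_union_right _ (mem_image_of_mem _ (mem_univ y))) _
  rw [← h1, ← h2]
  apply sum_congr rfl
  rintro ⟨i, j⟩ _
  have h3 : ∑ y with (r x y, r y z) = (i, j), F (r x y) (r y z) =
      ((univ.filter fun y => r x y = i ∧ r y z = j).card : ℝ) * F i j := by
    rw [← nsmul_eq_mul, ← sum_const]
    apply sum_congr
    · ext y; simp
    · intro y hy
      simp only [mem_filter, mem_univ, true_and] at hy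
      rw [hy.1, hy.2]
  have h4 : ∑ y with (r y z, r x y) = (i, j), F (r y z) (r x y) =
      ((univ.filter fun y => r x y = j ∧ r y z = i).card : ℝ) * F i j := by
    rw [← nsmul_eq_mul, ← sum_const]
    apply sum_congr
    · ext y; simp [and_comm]
    · intro y hy
      simp only [mem_filter, mem_univ, true_and] at hy
      rw [hy.1, hy.2]
  rw [h3, h4, hcm x z i j]

lemma sum_comm_class (hcm : Comm r) {f g : V → V → ℝ} (hf : ClassFun r f) (hg : ClassFun r g)
    (x z : V) : ∑ y, f x y * g y z = ∑ y, g x y * f y z := by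
  obtain ⟨F, hF⟩ := factor hf
  obtain ⟨G, hG⟩ := factor hg
  simp_rw [hF, hG]
  rw [sum_pair_comm hcm (fun i j => F i * G j) x z]
  exact sum_congr rfl fun y _ => mul_comm _ _

/-- Data of a block relation with indicator `χ` and block size `N`. -/
structure Blk (c χ : V → V → ℝ) (N : ℝ) : Prop where
  pos : 0 < N
  sq : ∀ x y, χ x y ^ 2 = χ x y
  nn : ∀ x y, 0 ≤ χ x y
  symm : ∀ x y, χ x y = χ y x
  size : ∀ x, ∑ y, χ x y = N
  cong : ∀ x x' y, χ x x' ≠ 0 → χ y x = χ y x'
  deg : ∀ x x', ∑ y, c x y = ∑ y, c x' y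
  comm : ∀ x z, ∑ y, c x y * χ y z = ∑ y, c z y * χ y x

/-- block average -/
noncomputable def ave (χ : V → V → ℝ) (N : ℝ) (f : V → ℝ) (x : V) : ℝ := (∑ y, χ x y * f y) / N

section blk

variable {c χ : V → V → ℝ} {N : ℝ}

lemma ave_const (hb : Blk c χ N) (f : V → ℝ) {x x' : V} (h : χ x x' ≠ 0) :
    ave χ N f x = ave χ N f x' := by
  unfold ave
  congr 1
  apply sum_congr rfl
  intro y _
  rw [hb.symm x y, hb.symm x' y, hb.cong x x' y h]

lemma ave_of_const (hb : Blk c χ N) {g : V → ℝ} (hg : ∀ x x', χ x x' ≠ 0 → g x = g x') (x : V) :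
    ∑ y, χ x y * g y = N * g x := by
  rw [← hb.size x, sum_mul]
  apply sum_congr rfl
  intro y _
  by_cases h : χ x y = 0
  · rw [h]; simp
  · rw [hg x y h]

lemma energy (hb : Blk c χ N) (hc : ∀ i j, 0 ≤ c i j) (hs : ∀ i j, c i j = c j i) (f : V → ℝ) :
    ∑ x, ∑ y, c x y * (ave χ N f x - ave χ N f y) ^ 2 ≤ ∑ x, ∑ y, c x y * (f x - f y) ^ 2 := by
  set g := ave χ N f with hg
  set h : V → ℝ := fun x => f x - g x with hh
  have hgc : ∀ x x', χ x x' ≠ 0 → g x = g x' := fun x x' hx => ave_const hb f hx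
  have hNg : ∀ x, ∑ y, χ x y * f y = N * g x := by
    intro x
    rw [hg]
    unfold ave
    rw [mul_div_cancel₀ _ hb.pos.ne']
  have hh0 : ∀ x, ∑ y, χ x y * h y = 0 := by
    intro x
    simp_rw [hh, mul_sub]
    rw [sum_sub_distrib, hNg, ave_of_const hb hgc]
    ring
  set G : V → ℝ := fun x => ∑ y, c x y * (g x - g y) with hG
  have hGc : ∀ x x', χ x x' ≠ 0 → G x = G x' := by
    intro x x' hx
    have h1 : ∀ x, G x = g x * ∑ y, c x y - ∑ y, c x y * g y := by
      intro x
      rw [hG]
      simp_rw [mul_sub]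
      rw [sum_sub_distrib, ← sum_mul]
      ring
    have h2 : ∀ x, ∑ y, c x y * g y = (∑ z, f z * ∑ y, c z y * χ y x) / N := by
      intro x
      have : ∀ y, c x y * g y = (∑ z, c x y * χ y z * f z) / N := by
        intro y
        rw [hg]
        unfold ave
        rw [mul_div_assoc', mul_sum]
        congr 1
        apply sum_congr rfl
        intro z _
        ring
      simp_rw [this]
      rw [← sum_div, sum_comm]
      congr 1
      apply sum_congr rfl
      intro z _
      rw [← hb.comm x z, ← sum_mul]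
      ring
    rw [h1, h1, hgc x x' hx, hb.deg x x', h2, h2]
    congr 2
    apply sum_congr rfl
    intro z _
    congr 1
    apply sum_congr rfl
    intro y _
    rw [hb.cong x x' y hx]
  have hzero : ∑ x, h x * G x = 0 := by
    have h1 : N * ∑ x, h x * G x = 0 := by
      calc N * ∑ x, h x * G x = ∑ x, h x * (N * G x) := by
            rw [mul_sum]
            apply sum_congr rfl; intro x _; ring
        _ = ∑ x, h x * ∑ y, χ x y * G y := by
            apply sum_congr rfl; intro x _
            rw [ave_of_const hb hGc]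
        _ = ∑ x, ∑ y, G y * (χ y x * h x) := by
            apply sum_congr rfl; intro x _
            rw [mul_sum]
            apply sum_congr rfl; intro y _
            rw [hb.symm x y]; ring
        _ = ∑ y, G y * ∑ x, χ y x * h x := by
            rw [sum_comm]
            apply sum_congr rfl; intro y _
            rw [mul_sum]
        _ = 0 := by
            apply sum_eq_zero; intro y _
            rw [hh0, mul_zero]
    rcases mul_eq_zero.1 h1 with h2 | h2
    · exact absurd h2 hb.pos.ne'
    · exact h2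
  have hcross : ∑ x, ∑ y, c x y * ((g x - g y) * (h x - h y)) = 0 := by
    have h1 : ∑ x, ∑ y, c x y * ((g x - g y) * h x) = 0 := by
      rw [← hzero]
      apply sum_congr rfl; intro x _
      rw [hG, mul_sum]
      apply sum_congr rfl; intro y _
      ring
    have h2 : ∑ x, ∑ y, c x y * ((g x - g y) * h y) = - ∑ x, ∑ y, c x y * ((g x - g y) * h x) := by
      rw [sum_comm, ← sum_neg_distrib]
      apply sum_congr rfl; intro x _
      rw [← sum_neg_distrib]
      apply sum_congr rfl; intro y _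
      rw [hs y x]; ring
    have h3 : ∀ x y, c x y * ((g x - g y) * (h x - h y)) =
        c x y * ((g x - g y) * h x) - c x y * ((g x - g y) * h y) := fun x y => by ring
    simp_rw [h3, sum_sub_distrib]
    rw [h2, h1]; simp
  have hexp : ∑ x, ∑ y, c x y * (f x - f y) ^ 2 = ∑ x, ∑ y, c x y * (g x - g y) ^ 2 +
      ∑ x, ∑ y, c x y * (h x - h y) ^ 2 + 2 * ∑ x, ∑ y, c x y * ((g x - g y) * (h x - h y)) := by
    rw [mul_sum, ← sum_add_distrib, ← sum_add_distrib]
    apply sum_congr rfl; intro x _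
    rw [mul_sum, ← sum_add_distrib, ← sum_add_distrib]
    apply sum_congr rfl; intro y _
    rw [hh]
    ring
  rw [hexp, hcross]
  have : 0 ≤ ∑ x, ∑ y, c x y * (h x - h y) ^ 2 :=
    sum_nonneg fun x _ => sum_nonneg fun y _ => mul_nonneg (hc x y) (sq_nonneg _)
  linarith

lemma variance (hb : Blk c χ N) (f : V → ℝ) (x : V) :
    (f x - ave χ N f x) ^ 2 ≤ (∑ y, χ x y * (f x - f y) ^ 2) / N := by
  have h1 : f x - ave χ N f x = (∑ y, χ x y * (χ x y * (f x - f y))) / N := by
    have h2 : ∀ y, χ x y * (χ x y * (f x - f y)) = χ x y * f x - χ x y * f y := by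
      intro y
      have := hb.sq x y
      calc χ x y * (χ x y * (f x - f y)) = χ x y ^ 2 * (f x - f y) := by ring
        _ = _ := by rw [this]; ring
    simp_rw [h2]
    rw [sum_sub_distrib, ← sum_mul, hb.size, sub_div, mul_div_cancel_left₀ _ hb.pos.ne']
    rfl
  have h3 := sum_mul_sq_le_sq_mul_sq univ (fun y => χ x y) (fun y => χ x y * (f x - f y))
  have h4 : ∑ y, χ x y ^ 2 = N := by
    simp_rw [hb.sq]
    exact hb.size x
  have h5 : ∑ y, (χ x y * (f x - f y)) ^ 2 = ∑ y, χ x y * (f x - f y) ^ 2 := by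
    apply sum_congr rfl; intro y _
    rw [mul_pow, hb.sq]
  rw [h4, h5] at h3
  have hN := hb.pos
  rw [h1, div_pow, div_le_div_iff₀ (by positivity) hN]
  nlinarith [h3]

end blk

lemma dist2_triangle {M : ℕ} (x y z : Fin M → ℝ) : dist2 x z ≤ dist2 x y + dist2 y z := by
  have h : ∀ a b : Fin M → ℝ, dist2 a b =
      dist (WithLp.toLp 2 a : EuclideanSpace ℝ (Fin M)) (WithLp.toLp 2 b) := by
    intro a b
    rw [EuclideanSpace.dist_eq]
    unfold dist2
    congr 1
    apply sum_congr rfl
    intro l _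
    rw [Real.dist_eq, sq_abs]
  rw [h, h, h]
  exact dist_triangle _ _ _

lemma dist2_symm {M : ℕ} (x y : Fin M → ℝ) : dist2 x y = dist2 y x := by
  unfold dist2
  congr 1
  apply sum_congr rfl
  intro l _
  ring

lemma dist2_sq {M : ℕ} (x y : Fin M → ℝ) : dist2 x y ^ 2 = ∑ l, (x l - y l) ^ 2 :=
  Real.sq_sqrt (sum_nonneg fun _ _ => sq_nonneg _)

lemma dist2_nonneg {M : ℕ} (x y : Fin M → ℝ) : 0 ≤ dist2 x y := Real.sqrt_nonneg _

end Vale.Agent.P318.H743
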